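import Claimed.Agent.R309.S8.Label
import Claimed.Agent.R309.S8.Depth

/-!
# Row 309, package **S9-Deep**: Lemma 9.3 (`push:component-labels`), Lemma 9.4 (`push:translated-deletions`)

Statements: helper209.  OWNER = the seat that claims subtask `S9-Deep`.  Keep the statements verbatim (tell helper209 if one is false or
awkward); helper lemmas with prefix `s9d_`.  Black boxes: `S8/Defs`, `S8/Label`, `S8/Depth`.  ~600 lines.

`D : Push P` is given; `D.deep A m = I_m`.  Both lemmas are sequence free here.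
-/

set_option autoImplicit false

namespace Claimed.Agent.R309

open Filter Topology Set Metric
open scoped Pointwise

namespace Push

variable {P : PS} (D : Push P)

theorem deep_subset_I (A : Set P.Y) (m : ℕ) : D.deep A m ⊆ P.I := fun _ hu => hu.1

theorem deep_disjoint (A : Set P.Y) (m : ℕ) : Disjoint (D.deep A m) A :=
  Set.disjoint_left.2 fun _ hu => hu.2.1

/-- `I_{m'} ⊆ I_m` for `m ≤ m'` (`AnnSys.Dep.le`) -/
theorem deep_anti (A : Set P.Y) {m m' : ℕ} (h : m ≤ m') : D.deep A m' ⊆ D.deep A m :=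
  fun _ hu => ⟨hu.1, hu.2.1, fun g p hp hgp => (hu.2.2 g p hp hgp).le D.𝒜 h⟩

/-- a vertex outside `A` which is not deep has a representative of small depth -/
theorem s9d_not_deep {A : Set P.Y} {m : ℕ} {u : P.Y} (hu : u ∈ P.I) (huA : u ∉ A) (hd : u ∉ D.deep A m) :
    ∃ g : P.H, ∃ p ∈ D.R, g • p = u ∧ ¬ D.𝒜.Dep A {P.ι g} m := by
  by_contra hcon
  push Not at hcon
  exact hd ⟨hu, huA, hcon⟩

/-- **Lemma 9.3, first part**: near a point `x ∈ L \ A` only finitely many vertices are deleted.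
Proof: `𝒜.chain A x m` gives `V ∈ 𝓝 x` with `Dep A V m`; shrink: `ball x (2 ε) ⊆ V \ A`.  A deleted vertex `u ∈ ball x ε` is not in `A`, so `u = g • p`, `p ∈ R`, with
`¬ Dep A {ι g} m`, hence `ι g ∉ V`, hence `ε ≤ dist (g • p) (ι g)`; `PS.comp_finite` leaves finitely many `g`, and `R` is finite. -/
theorem deleted_finite {A : Set P.Y} (hA : IsClosed A) (m : ℕ) {x : P.Y} (hx : x ∈ P.L) (hxA : x ∉ A) :
    ∃ W ∈ 𝓝 x, ((P.I \ D.deep A m) ∩ W).Finite := by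
  obtain ⟨V, hV, hdep⟩ := D.𝒜.chain A hA x hx hxA m
  have hVA : V ∩ Aᶜ ∈ 𝓝 x := inter_mem hV (hA.isOpen_compl.mem_nhds hxA)
  obtain ⟨δ, hδ, hball⟩ := Metric.mem_nhds_iff.1 hVA
  refine ⟨ball x (δ / 2), ball_mem_nhds x (half_pos hδ), ?_⟩
  have hfin := P.comp_finite D.R_fin D.R_sub (δ / 2) (half_pos hδ)
  refine (hfin.image2 (fun (g : P.H) (p : P.Y) => g • p) D.R_fin).subset ?_
  rintro u ⟨⟨huI, hud⟩, huW⟩
  have huA : u ∉ A := (hball (ball_subset_ball (by linarith) huW)).2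
  obtain ⟨g, p, hp, hgp, hnd⟩ := D.s9d_not_deep huI huA hud
  refine ⟨g, ⟨p, hp, ?_⟩, p, hp, hgp⟩
  have hgV : P.ι g ∉ V := fun h =>
    hnd (AnnSys.Dep.mono D.𝒜 hdep subset_rfl (singleton_subset_iff.2 h))
  have h1 : δ ≤ dist (P.ι g) x := by
    by_contra hlt
    exact hgV (hball (mem_ball.2 (not_le.1 hlt))).1
  have h2 : dist u x < δ / 2 := huW
  have h3 := dist_triangle (P.ι g) u x
  rw [hgp, dist_comm u (P.ι g)]
  linarith

/-- **Lemma 9.3**: `L \ A ⊆ Ω_{I_m}` (so all of `S8/Label.lean` applies to `T = I_m` at the points of `L \ A`) -/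
theorem mem_om_deep {A : Set P.Y} (hA : IsClosed A) (m : ℕ) {x : P.Y} (hx : x ∈ P.L) (hxA : x ∉ A) :
    x ∈ P.Om (D.deep A m) := by
  obtain ⟨W, hW, hfin⟩ := D.deleted_finite hA m hx hxA
  exact PS.mem_om_of_finite hx hW hfin

/-- **Lemma 9.3, last part**: a finite set of vertices is disjoint from `I_m` for large `m` (`R_cov`, `AnnSys.dep_bdd`, `deep_anti`) -/
theorem deep_avoid {A : Set P.Y} (h1 : P.ι 1 ∈ A) (E : Set P.Y) (hE : E.Finite) :
    ∃ m₀ : ℕ, ∀ m, m₀ ≤ m → Disjoint E (D.deep A m) := by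
  have hpt : ∀ u : P.Y, ∃ m₀ : ℕ, ∀ m, m₀ ≤ m → u ∉ D.deep A m := by
    intro u
    by_cases hu : u ∈ P.I
    · obtain ⟨g, p, hp, hgp⟩ := D.R_cov u hu
      obtain ⟨N, hN⟩ := D.𝒜.dep_bdd 1 g
      refine ⟨N + 1, fun m hm hd => ?_⟩
      have := hN A {P.ι g} m h1 rfl (hd.2.2 g p hp hgp)
      omega
    · exact ⟨0, fun m _ hd => hu hd.1⟩
  choose f hf using hpt
  obtain ⟨M, hM⟩ := (hE.image f).bddAbove
  refine ⟨M, fun m hm => Set.disjoint_left.2 fun u hu => hf u m ((hM ⟨u, hu, rfl⟩).trans hm)⟩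

/-- **Lemma 9.4** (`push:translated-deletions`), uniform version.  The finite set `S` depends only on `q` and `r`, not on `A, g, m`.
Proof.  Let `C` be the constant of `AnnSys.dep_concat r`.  Put
 `S = {b • p | p ∈ R, b : H, 4 r ≤ dist (b • p) q ∧ (dist (ι b) q < 3 r ∨ ¬ Dep {ι 1} {ι b} (C + 1))}`.
 `S` is finite: `R` is finite; `{b | ¬ Dep {ι 1} {ι b} (C+1)}` is finite (`dep_one_cofinite`); `4 r ≤ dist (b • p) q` and `dist (ι b) q < 3 r` give `r ≤ dist (b • p) (ι b)` (`comp_finite`).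
 Let `w ∈ I`, `4 r ≤ dist w q`, `g • w ∉ deep A (m+1)`.  `g • w ∈ I`, and `g • w ∉ A` because `w ∉ g⁻¹ • A ⊆ ball q (r/2)`.  So there are `g'`, `p ∈ R` with `g' • p = g • w` and
 `¬ Dep A {ι g'} (m+1)`.  With `b = g⁻¹ g'`: `b • p = w`, `¬ Dep (g⁻¹ • A) {ι b} (m+1)`, and `Dep (g⁻¹ • A) {ι 1} m` (`dep_smul_ι`).  If `3 r ≤ dist (ι b) q` and
 `Dep {ι 1} {ι b} (C+1)` then `dep_concat` gives `Dep (g⁻¹ • A) {ι b} (m + (C+1) - C)`: contradiction.  Hence `w ∈ S`. -/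
theorem transl_del (q : P.Y) (r : ℝ) (hr : 0 < r) :
    ∃ S : Set P.Y, S.Finite ∧ ∀ (A : Set P.Y) (g : P.H) (m : ℕ), A.Nonempty → D.𝒜.Dep A {P.ι g} m →
      g⁻¹ • A ⊆ ball q (r / 2) → ∀ w ∈ P.I, 4 * r ≤ dist w q → g • w ∉ D.deep A (m + 1) → w ∈ S := by
  obtain ⟨C, hC⟩ := D.𝒜.dep_concat r hr
  have hB1 := P.comp_finite D.R_fin D.R_sub r hr
  have hB2 := D.𝒜.dep_one_cofinite (C + 1)
  refine ⟨_, (hB1.union hB2).image2 (fun (b : P.H) (p : P.Y) => b • p) D.R_fin, ?_⟩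
  intro A g m hAne hdep hsub w hw hwq hnd
  have hgwA : g • w ∉ A := by
    intro h
    have h1 : w ∈ g⁻¹ • A := ⟨g • w, h, inv_smul_smul g w⟩
    have h2 : dist w q < r / 2 := hsub h1
    linarith
  obtain ⟨g', p, hp, hgp, hnd'⟩ := D.s9d_not_deep (P.I_smul g w hw) hgwA hnd
  have hb : (g⁻¹ * g') • p = w := by rw [mul_smul, hgp, inv_smul_smul]
  have hnd'' : ¬ D.𝒜.Dep (g⁻¹ • A) {P.ι (g⁻¹ * g')} (m + 1) := by
    rw [← D.𝒜.dep_smul_ι g (g⁻¹ * g') A (m + 1), mul_inv_cancel_left]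
    exact hnd'
  have hdep1 : D.𝒜.Dep (g⁻¹ • A) {P.ι 1} m := by
    rw [← D.𝒜.dep_smul_ι g 1 A m, mul_one]
    exact hdep
  refine ⟨g⁻¹ * g', ?_, p, hp, hb⟩
  by_cases h2 : D.𝒜.Dep {P.ι 1} {P.ι (g⁻¹ * g')} (C + 1)
  · left
    refine ⟨p, hp, ?_⟩
    have h3 : dist (P.ι (g⁻¹ * g')) q < 3 * r := by
      by_contra hge
      have h4 := hC q (g⁻¹ • A) (P.ι (g⁻¹ * g')) m (C + 1) hAne.smul_set hsub (not_lt.1 hge) hdep1 h2
      have e : m + (C + 1) - C = m + 1 := by omega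
      rw [e] at h4
      exact hnd'' h4
    have h5 := dist_triangle ((g⁻¹ * g') • p) (P.ι (g⁻¹ * g')) q
    rw [hb] at h5 ⊢
    linarith
  · right
    exact h2

end Push

end Claimed.Agent.R309
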