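import Claimed.Agent.R309.S9.Deep

/-!
# Row 309, package **S9-Event**: Lemma 9.5 (`push:eventual-labels`) and the uniform core of Lemma 9.6 (`push:majority`)

Statements: helper209.  OWNER = the seat that claims subtask `S9-Event`.  Keep the statements verbatim (tell helper209 if one is false or
awkward); helper lemmas with prefix `s9e_`.  Black boxes: `S8/Defs`, `S8/Label`, `S8/Depth`, `S9/Deep`.  ~800 lines.

Notation: `Q_m = P.Q (D.deep A m)`.  A pair `(g, m)` is called `(q, r)`-deep if `Dep A {ι g} m` and `g⁻¹ • A ⊆ ball q r`.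
The sequences `g_n`, `m_n` of the paper are replaced by "all `(q, r)`-deep pairs, for some `r > 0`".
-/

set_option autoImplicit false

namespace Claimed.Agent.R309

open Filter Topology Set Metric
open scoped Pointwise

/-- a common radius for finitely many conditions -/
theorem s9e_unif {α : Type} {F : Set α} (hF : F.Finite) (Pr : α → ℝ → Prop)
    (hanti : ∀ x r r', r' ≤ r → Pr x r → Pr x r') (h : ∀ x ∈ F, ∃ r : ℝ, 0 < r ∧ Pr x r) :
    ∃ r : ℝ, 0 < r ∧ ∀ x ∈ F, Pr x r := by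
  induction F, hF using Set.Finite.induction_on with
  | empty => exact ⟨1, one_pos, by simp⟩
  | @insert a s _ _ ih =>
    obtain ⟨r₁, hr₁, h₁⟩ := ih fun x hx => h x (mem_insert_of_mem _ hx)
    obtain ⟨r₂, hr₂, h₂⟩ := h a (mem_insert _ _)
    refine ⟨min r₁ r₂, lt_min hr₁ hr₂, ?_⟩
    rintro x (rfl | hx)
    · exact hanti _ _ _ (min_le_right _ _) h₂
    · exact hanti _ _ _ (min_le_left _ _) (h₁ x hx)

namespace Push

variable {P : PS} (D : Push P)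

/-- **Lemma 9.5, local part.**  Let `z ∈ L`, `z ≠ q`.  There are `r > 0` and a neighbourhood of `z` all of whose points `w ∈ L` satisfy: for all `(q,r)`-deep `(g,m)`,
`g w ∉ A`, `g z ∉ A` and `Q_{m+1}(g w) = Q_{m+1}(g z)`.
Proof.  `r₀ = dist z q / 5`, `O = {y | 4 r₀ < dist y q}` (open, contains `z`), `S` from `transl_del q r₀`, `T = (I ∩ O) \ S`, `r = r₀ / 2`.
 * `g • T ⊆ deep A (m+1)` for all `(q, r)`-deep `(g, m)` (contrapositive of `transl_del`; `A` is nonempty as `ι 1 ∈ A`);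
 * `O ∩ L ⊆ Ω_T` (`mem_om_of_finite` with `W = O`: `(I \ T) ∩ O ⊆ S`);
 * `Q_locconst` for `T` at `z`: `Q T w = Q T z` for `w ∈ L` near `z`;
 * for `w ∈ O ∩ L`: `w ∉ g⁻¹ • A`, i.e. `g • w ∉ A`, and `g • w ∈ L`, so `g • w ∈ Ω_{deep A (m+1)}` (`mem_om_deep`);
 * `Q_transport_eq`. -/
theorem event_local {A : Set P.Y} (hA : IsClosed A) (h1 : P.ι 1 ∈ A) {q z : P.Y} (hz : z ∈ P.L) (hzq : z ≠ q) :
    ∃ r : ℝ, 0 < r ∧ ∀ᶠ w in 𝓝 z, w ∈ P.L → ∀ (g : P.H) (m : ℕ), D.𝒜.Dep A {P.ι g} m → g⁻¹ • A ⊆ ball q r →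
      g • z ∉ A ∧ g • w ∉ A ∧ P.Q (D.deep A (m + 1)) (g • z) = P.Q (D.deep A (m + 1)) (g • w) := by
  set r₀ := dist z q / 5 with hr₀
  have hr₀pos : 0 < r₀ := by
    have := dist_pos.2 hzq
    positivity
  have hdz : dist z q = 5 * r₀ := by rw [hr₀]; ring
  set O : Set P.Y := {y | 4 * r₀ < dist y q} with hO
  have hOopen : IsOpen O := isOpen_lt continuous_const (continuous_id.dist continuous_const)
  have hzO : z ∈ O := by
    show 4 * r₀ < dist z q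
    linarith
  obtain ⟨S, hSfin, hS⟩ := D.transl_del q r₀ hr₀pos
  set T : Set P.Y := (P.I ∩ O) \ S with hT
  have hTI : T ⊆ P.I := fun t ht => ht.1.1
  have hOm : ∀ w ∈ O, w ∈ P.L → w ∈ P.Om T := by
    intro w hwO hwL
    refine PS.mem_om_of_finite hwL (hOopen.mem_nhds hwO) (hSfin.subset ?_)
    rintro y ⟨⟨hyI, hyT⟩, hyO⟩
    by_contra hyS
    exact hyT ⟨⟨hyI, hyO⟩, hyS⟩
  refine ⟨r₀ / 2, by positivity, ?_⟩
  filter_upwards [PS.Q_locconst hTI (hOm z hzO hz), hOopen.mem_nhds hzO] with w hw hwO hwL g m hdep hsub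
  have hgT : ∀ t ∈ T, g • t ∈ D.deep A (m + 1) := by
    intro t ht
    by_contra hcon
    have h4 : 4 * r₀ < dist t q := ht.1.2
    exact ht.2 (hS A g m ⟨_, h1⟩ hdep hsub t ht.1.1 h4.le hcon)
  have hout : ∀ w ∈ O, g • w ∉ A := by
    intro w hwO hgw
    have h2 : w ∈ g⁻¹ • A := Set.mem_inv_smul_set_iff.2 hgw
    have h3 := hsub h2
    rw [mem_ball] at h3
    have h4 : 4 * r₀ < dist w q := hwO
    linarith
  have hom' : ∀ w ∈ O, w ∈ P.L → g • w ∈ P.Om (D.deep A (m + 1)) := fun w hwO hwL =>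
    D.mem_om_deep hA (m + 1) ((P.smul_mem_L_iff g w).2 hwL) (hout w hwO)
  exact ⟨hout z hzO, hout w hwO, PS.Q_transport_eq hTI (D.deep_subset_I A (m + 1)) g hgT (hOm z hzO hz)
    (hOm w hwO hwL) (hom' z hzO hz) (hom' w hwO hwL) (hw hwL).2.symm⟩

/-- **Lemma 9.5** (`push:eventual-labels`).  This is the ONLY use of "`q` is not a cut point" in Sec 9.
Proof: `IsPreconnected.induction₂'` for `s = L \ {q}` (`P.L_nocut q hq`) and the relation
 `Rel z z' := ∃ r > 0, ∀ g m, Dep A {ι g} m → g⁻¹ • A ⊆ ball q r → (g z ∉ A ∧ g z' ∉ A ∧ Q_{m+1}(g z) = Q_{m+1}(g z'))`,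
 which is symmetric, transitive (minimum of the two radii) and holds locally by `event_local`. -/
theorem event_label {A : Set P.Y} (hA : IsClosed A) (h1 : P.ι 1 ∈ A) {q z z' : P.Y} (hq : q ∈ P.L)
    (hz : z ∈ P.L) (hzq : z ≠ q) (hz' : z' ∈ P.L) (hzq' : z' ≠ q) :
    ∃ r : ℝ, 0 < r ∧ ∀ (g : P.H) (m : ℕ), D.𝒜.Dep A {P.ι g} m → g⁻¹ • A ⊆ ball q r →
      g • z ∉ A ∧ g • z' ∉ A ∧ P.Q (D.deep A (m + 1)) (g • z) = P.Q (D.deep A (m + 1)) (g • z') := by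
  have hpre : IsPreconnected (P.L \ {q}) := P.L_nocut q hq
  refine hpre.induction₂ (fun z z' => ∃ r : ℝ, 0 < r ∧ ∀ (g : P.H) (m : ℕ), D.𝒜.Dep A {P.ι g} m →
      g⁻¹ • A ⊆ ball q r → g • z ∉ A ∧ g • z' ∉ A ∧
        P.Q (D.deep A (m + 1)) (g • z) = P.Q (D.deep A (m + 1)) (g • z')) ?_ ?_ ?_ ⟨hz, hzq⟩ ⟨hz', hzq'⟩
  · rintro x ⟨hxL, hxq⟩
    obtain ⟨r, hr, hev⟩ := D.event_local hA h1 hxL hxq
    filter_upwards [nhdsWithin_le_nhds hev, self_mem_nhdsWithin] with w hw hws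
    exact ⟨r, hr, fun g m hdep hsub => hw hws.1 g m hdep hsub⟩
  · rintro x y w - - - ⟨r, hr, h⟩ ⟨r', hr', h'⟩
    refine ⟨min r r', lt_min hr hr', fun g m hdep hsub => ?_⟩
    obtain ⟨a1, -, a3⟩ := h g m hdep (hsub.trans (ball_subset_ball (min_le_left _ _)))
    obtain ⟨-, b2, b3⟩ := h' g m hdep (hsub.trans (ball_subset_ball (min_le_right _ _)))
    exact ⟨a1, b2, a3.trans b3⟩
  · rintro x y - - ⟨r, hr, h⟩
    refine ⟨r, hr, fun g m hdep hsub => ?_⟩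
    obtain ⟨a1, a2, a3⟩ := h g m hdep hsub
    exact ⟨a2, a1, a3.symm⟩

/-- every element of large depth is `(q, r q)`-deep for some `q ∈ L`, for any prescribed positive function `r` on `L`.
Proof: cover the compact set `L` by finitely many balls `ball q_i (r q_i / 2)`; `r₀ = min_i r q_i / 2`; the closed set `K = (⋃ ball q_i (r q_i / 2))ᶜ` misses `L`, so `E = {h | ι h ∈ K}` is
finite (`finite_ι_preimage`).  By `dep_escape` (applied to `E⁻¹`) and `dep_small r₀` (through `dep_smul_ι`: `Dep A {ι g} m ↔ Dep (g⁻¹ • A) {ι 1} m`) there is `M` such that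
`Dep A {ι g} M` implies `g⁻¹ ∉ E` and `g⁻¹ • A` has all distances `< r₀`.  As `ι g⁻¹ = g⁻¹ • ι 1 ∈ g⁻¹ • A` lies in some `ball q_i (r q_i / 2)`, `g⁻¹ • A ⊆ ball q_i (r q_i)`. -/
theorem deep_localize {A : Set P.Y} (h1 : P.ι 1 ∈ A) (r : P.Y → ℝ) (hr : ∀ q ∈ P.L, 0 < r q) :
    ∃ M : ℕ, ∀ g : P.H, D.𝒜.Dep A {P.ι g} M → ∃ q ∈ P.L, g⁻¹ • A ⊆ ball q (r q) := by
  obtain ⟨δ, hδ, hleb⟩ := lebesgue_number_lemma_of_metric (c := fun q : P.L => ball q.1 (r q.1)) P.isCompact_L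
    (fun _ => isOpen_ball) (fun x hx => mem_iUnion.2 ⟨⟨x, hx⟩, mem_ball_self (hr x hx)⟩)
  have hE : {h : P.H | δ / 2 ≤ infDist (P.ι h) P.L}.Finite := by
    have h2 := P.tendsto_infDist_ι.eventually (gt_mem_nhds (half_pos hδ))
    rw [Filter.eventually_cofinite] at h2
    refine h2.subset ?_
    intro h hh
    exact not_lt.2 hh
  have hE' : {g : P.H | δ / 2 ≤ infDist (P.ι g⁻¹) P.L}.Finite := by
    have := hE.preimage (f := fun g : P.H => g⁻¹) (inv_injective.injOn)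
    exact this
  obtain ⟨m₁, hm₁⟩ := D.𝒜.dep_escape A h1 _ hE'
  obtain ⟨m₂, hm₂⟩ := D.𝒜.dep_small (δ / 2) (half_pos hδ)
  refine ⟨max m₁ m₂, fun g hdep => ?_⟩
  have hd₁ : D.𝒜.Dep A {P.ι g} m₁ := AnnSys.Dep.le D.𝒜 hdep (le_max_left _ _)
  have hd₂ : D.𝒜.Dep (g⁻¹ • A) {P.ι 1} m₂ := by
    have := AnnSys.Dep.le D.𝒜 hdep (le_max_right m₁ m₂)
    rw [← mul_one g] at this
    exact (D.𝒜.dep_smul_ι g 1 A m₂).1 this
  have hclose : infDist (P.ι g⁻¹) P.L < δ / 2 := by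
    by_contra hcon
    exact hm₁ g (not_lt.1 hcon) hd₁
  obtain ⟨x, hxL, hx⟩ := (infDist_lt_iff P.L_conn.nonempty).1 hclose
  obtain ⟨q, hq⟩ := hleb x hxL
  refine ⟨q.1, q.2, fun y hy => hq ?_⟩
  have hmem : P.ι g⁻¹ ∈ g⁻¹ • A := by
    rw [← P.smul_ι_one g⁻¹]
    exact Set.smul_mem_smul_set h1
  have h3 := hm₂ _ hd₂ y hy _ hmem
  rw [mem_ball]
  calc dist y x ≤ dist y (P.ι g⁻¹) + dist (P.ι g⁻¹) x := dist_triangle _ _ _
    _ < δ / 2 + δ / 2 := add_lt_add h3 hx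
    _ = δ := add_halves δ

/-- **Lemma 9.6, uniform core.**  For a finite set `Z ⊆ L` there is a threshold `M` such that for `m ≥ M` and `D(A,g) ≥ m` all points of `g Z`, except possibly the image of ONE point `q`,
lie outside `A` and carry the same `Q_{m+1}` label.
Proof: for `q ∈ L` let `r q` be the minimum of the radii of `event_label` over the finitely many pairs of `Z \ {q}`; apply `deep_localize` (and `Dep.le`). -/
theorem unif_label {A : Set P.Y} (hA : IsClosed A) (h1 : P.ι 1 ∈ A) (Z : Set P.Y) (hZ : Z.Finite) (hZL : Z ⊆ P.L) :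
    ∃ M : ℕ, ∀ m, M ≤ m → ∀ g : P.H, D.𝒜.Dep A {P.ι g} m → ∃ q ∈ P.L, ∀ z ∈ Z, ∀ z' ∈ Z, z ≠ q → z' ≠ q →
      g • z ∉ A ∧ g • z' ∉ A ∧ P.Q (D.deep A (m + 1)) (g • z) = P.Q (D.deep A (m + 1)) (g • z') := by
  classical
  have hloc : ∀ q ∈ P.L, ∃ r : ℝ, 0 < r ∧ ∀ x ∈ Z ×ˢ Z, x.1 ≠ q → x.2 ≠ q → ∀ (g : P.H) (m : ℕ),
      D.𝒜.Dep A {P.ι g} m → g⁻¹ • A ⊆ ball q r → g • x.1 ∉ A ∧ g • x.2 ∉ A ∧
        P.Q (D.deep A (m + 1)) (g • x.1) = P.Q (D.deep A (m + 1)) (g • x.2) := by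
    intro q hq
    refine s9e_unif (hZ.prod hZ) (fun x r => x.1 ≠ q → x.2 ≠ q → ∀ (g : P.H) (m : ℕ),
      D.𝒜.Dep A {P.ι g} m → g⁻¹ • A ⊆ ball q r → g • x.1 ∉ A ∧ g • x.2 ∉ A ∧
        P.Q (D.deep A (m + 1)) (g • x.1) = P.Q (D.deep A (m + 1)) (g • x.2)) ?_ ?_
    · intro x r r' hrr h hx1 hx2 g m hdep hsub
      exact h hx1 hx2 g m hdep (hsub.trans (ball_subset_ball hrr))
    · rintro ⟨z, z'⟩ ⟨hz, hz'⟩
      by_cases hzq : z = q
      · exact ⟨1, one_pos, fun h => absurd hzq h⟩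
      by_cases hzq' : z' = q
      · exact ⟨1, one_pos, fun _ h => absurd hzq' h⟩
      obtain ⟨r, hr, h⟩ := D.event_label hA h1 hq (hZL hz) hzq (hZL hz') hzq'
      exact ⟨r, hr, fun _ _ => h⟩
  set r : P.Y → ℝ := fun q => if hq : q ∈ P.L then Classical.choose (hloc q hq) else 1 with hrdef
  have hrspec : ∀ q (hq : q ∈ P.L), r q = Classical.choose (hloc q hq) := fun q hq => by
    simp only [hrdef, dif_pos hq]
  obtain ⟨M, hM⟩ := D.deep_localize h1 r (fun q hq => by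
    rw [hrspec q hq]; exact (Classical.choose_spec (hloc q hq)).1)
  refine ⟨M, fun m hm g hdep => ?_⟩
  obtain ⟨q, hq, hsub⟩ := hM g (AnnSys.Dep.le D.𝒜 hdep hm)
  refine ⟨q, hq, fun z hz z' hz' hzq hzq' => ?_⟩
  rw [hrspec q hq] at hsub
  exact (Classical.choose_spec (hloc q hq)).2 (z, z') ⟨hz, hz'⟩ hzq hzq' g m hdep hsub

end Push

end Claimed.Agent.R309
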