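import Claimed.Agent.R309.S9.Refine
import Claimed.Agent.R309.S8.Ann
import Claimed.Agent.R309.S10

/-!
# Row 309, package **S9-LocConn**: Proposition 9.8 (`push:local-connected`) and the interface `I_end : PS → False`

Statements: helper209.  Proofs: helper135 (this file has no open goal of its own).  OWNER = the seat that claims subtask `S9-LocConn`.  Keep the statements verbatim (tell helper209 if one is false or
awkward); helper lemmas with prefix `s9c_`.  Black boxes: all files of `S8/`, `S9/`, and `S10.lean`.  ~700 lines.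

No Hausdorff limits and no choice of paths: for `x ∈ L` and an open `O ∋ x` with `ι 1 ∉ O` put `A = Oᶜ`, take `M` from `Push.refine`, and
   `C = ⋂ m ≥ M, closure (Q_m(x))`,    `Q_m = P.Q (D.deep A m)`.
 (a) `Q_{m+1}(x) ⊆ Q_m(x)` (`Q_mono`, `deep_anti`);
 (b) `C ⊆ closure O`, since `Q_m(x) ⊆ I_m ⊆ Aᶜ = O`;
 (c) `C ⊆ L`: if `ι h ∈ closure (Q_m(x))` then `ι h ∈ Q_m(x) ⊆ I_m` (the point is isolated), which fails for large `m` (`deep_avoid {ι h}`);
 (d) there is `V ∈ 𝓝 x` with `Q_M(y) = Q_M(x)` for `y ∈ V ∩ L`, `V ⊆ O` (`Q_locconst`); by induction with `Push.refine`, `Q_m(y) = Q_m(x)` for all `m ≥ M`; `y ∈ closure (Q_m(y))` (`Q_acc`); so `V ∩ L ⊆ C`;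
 (e) `C` is preconnected: `s9c_chain_limit` with `K m = Q_{M+m}(x)`; two vertices of `Q_m(x)` are joined in `K[I_m]` (`Q_joined`), all vertices of the path lie in `Q_m(x)` (`Q_of_joined`), and the edges of `K[I_m]`
     are short for large `m` (`Push.mesh`).
 So `C` is a preconnected neighbourhood of `x` in `L` contained in `closure O`.  Conclude with `locallyConnectedSpace_iff_connected_subsets` in the subtype `↥P.L`
 (`Topology.IsInducing.subtypeVal.isPreconnected_image`; choose `O` a small ball, `closure (ball x ε) ⊆ closedBall x ε`).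
-/

set_option autoImplicit false

namespace Claimed.Agent.R309

open Filter Topology Set Metric
open scoped Pointwise

/-- **limits of chain connected sets.**  Let `K m` be a decreasing sequence of subsets of a compact metric space such that for every `ε > 0`, for large `m`, any two points of `K m`
are joined by an `ε`-chain in `K m`.  Then `⋂ m, closure (K m)` is preconnected.
Proof: otherwise (`isPreconnected_closed_iff`) `C = C₀ ⊔ C₁` with disjoint nonempty compact sets at distance `δ > 0`; `N_i` = open `δ/3`-neighbourhood of `C_i`.  The decreasing compact sets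
`closure (K m) \ (N₀ ∪ N₁)` have empty intersection, so one of them is empty; `K m` meets the open sets `N₀`, `N₁` since its closure contains `C₀`, `C₁`; a `δ/3`-chain in `K m ⊆ N₀ ∪ N₁`
from `N₀` to `N₁` has a step from `N₀` to `N₁`, of length `≥ δ/3`. -/
theorem s9c_chain_limit {X : Type} [MetricSpace X] [CompactSpace X] (K : ℕ → Set X) (hK : Antitone K)
    (hch : ∀ ε : ℝ, 0 < ε → ∃ m₀, ∀ m, m₀ ≤ m → ∀ a ∈ K m, ∀ b ∈ K m,
      Relation.ReflTransGen (fun u v => u ∈ K m ∧ v ∈ K m ∧ dist u v < ε) a b) :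
    IsPreconnected (⋂ m, closure (K m)) := by
  rw [isPreconnected_closed_iff]
  intro t t' ht ht' hsub h0 h1
  by_contra hcon
  rw [Set.not_nonempty_iff_eq_empty] at hcon
  set C : Set X := ⋂ m, closure (K m) with hC
  have hCcl : IsClosed C := isClosed_iInter fun m => isClosed_closure
  have hdisj : Disjoint (C ∩ t) (C ∩ t') := by
    rw [Set.disjoint_left]
    intro y hy hy'
    have : y ∈ C ∩ (t ∩ t') := ⟨hy.1, hy.2, hy'.2⟩
    rw [hcon] at this
    exact this
  obtain ⟨δ, hδ, hth⟩ := hdisj.exists_thickenings (hCcl.inter ht).isCompact (hCcl.inter ht')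
  set N₀ : Set X := thickening (δ / 2) (C ∩ t) with hN₀
  set N₁ : Set X := thickening (δ / 2) (C ∩ t') with hN₁
  have hδ2 : 0 < δ / 2 := half_pos hδ
  have hN₀o : IsOpen N₀ := isOpen_thickening
  have hN₁o : IsOpen N₁ := isOpen_thickening
  -- the gap
  have hgap : ∀ u ∈ N₀, ∀ v ∈ N₁, δ / 2 ≤ dist u v := by
    intro u hu v hv
    by_contra hlt
    push Not at hlt
    rw [hN₀, mem_thickening_iff] at hu
    obtain ⟨c, hc, hcu⟩ := hu
    have hv0 : v ∈ thickening δ (C ∩ t) := by
      rw [mem_thickening_iff]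
      refine ⟨c, hc, ?_⟩
      calc dist v c ≤ dist v u + dist u c := dist_triangle _ _ _
        _ < δ / 2 + δ / 2 := by
            rw [dist_comm v u]
            exact add_lt_add hlt hcu
        _ = δ := add_halves δ
    have hv1 : v ∈ thickening δ (C ∩ t') := thickening_mono (by linarith) _ hv
    exact Set.disjoint_left.1 hth hv0 hv1
  -- some `closure (K m)` is contained in `N₀ ∪ N₁`
  obtain ⟨m₁, hm₁⟩ : ∃ m₁, closure (K m₁) ⊆ N₀ ∪ N₁ := by
    by_contra hno
    push Not at hno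
    have hne := IsCompact.nonempty_iInter_of_sequence_nonempty_isCompact_isClosed
      (fun m => closure (K m) \ (N₀ ∪ N₁))
      (fun m => Set.sdiff_subset_sdiff_left (closure_mono (hK (Nat.le_succ m))))
      (fun m => by
        obtain ⟨y, hy, hy'⟩ := Set.not_subset.1 (hno m)
        exact ⟨y, hy, hy'⟩)
      ((isClosed_closure.sdiff (hN₀o.union hN₁o)).isCompact)
      (fun m => isClosed_closure.sdiff (hN₀o.union hN₁o))
    obtain ⟨y, hy⟩ := hne
    rw [Set.mem_iInter] at hy
    have hyC : y ∈ C := Set.mem_iInter.2 fun m => (hy m).1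
    rcases hsub hyC with hyt | hyt
    · exact (hy 0).2 (Or.inl (self_subset_thickening hδ2 _ ⟨hyC, hyt⟩))
    · exact (hy 0).2 (Or.inr (self_subset_thickening hδ2 _ ⟨hyC, hyt⟩))
  obtain ⟨m₀, hm₀⟩ := hch (δ / 2) hδ2
  set m := max m₀ m₁ with hm
  have hKm : K m ⊆ N₀ ∪ N₁ := (hK (le_max_right m₀ m₁)).trans (subset_closure.trans hm₁)
  obtain ⟨c₀, hc₀⟩ := h0
  obtain ⟨c₁, hc₁⟩ := h1
  obtain ⟨a, haN, haK⟩ := mem_closure_iff.1 (Set.mem_iInter.1 hc₀.1 m) N₀ hN₀o (self_subset_thickening hδ2 _ hc₀)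
  obtain ⟨b, hbN, hbK⟩ := mem_closure_iff.1 (Set.mem_iInter.1 hc₁.1 m) N₁ hN₁o (self_subset_thickening hδ2 _ hc₁)
  have hchain := hm₀ m (le_max_left m₀ m₁) a haK b hbK
  have hall : ∀ z, Relation.ReflTransGen (fun u v => u ∈ K m ∧ v ∈ K m ∧ dist u v < δ / 2) a z → z ∈ N₀ := by
    intro z hz
    induction hz with
    | refl => exact haN
    | @tail u v _ huv ih =>
      rcases hKm huv.2.1 with h | h
      · exact h
      · exact absurd huv.2.2 (not_lt.2 (hgap u ih v h))
  have := hgap b (hall b hchain) b hbN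
  rw [dist_self] at this
  linarith

/-- **mesh**: the edges of `K[I_m]` are short for large `m`.
Proof: finite list of edge representatives `(u,u')` (`adj_fin`, only those with `u, u' ∈ I` matter); `dist (g u) (g u') ≤ dist (g u) (ι g) + dist (ι g) (g u')`, `PS.comp_finite`: outside a finite `F ⊆ H` all
these are `< ε`; the finitely many endpoints `g u, g u'`, `g ∈ F`, are not in `I_m` for large `m` (`deep_avoid`). -/
theorem Push.mesh {P : PS} (D : Push P) {A : Set P.Y} (h1 : P.ι 1 ∈ A) (ε : ℝ) (hε : 0 < ε) :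
    ∃ m₀ : ℕ, ∀ m, m₀ ≤ m → ∀ v ∈ D.deep A m, ∀ w ∈ D.deep A m, P.adj v w → dist v w < ε := by
  classical
  obtain ⟨F, hF⟩ := P.adj_fin
  set R' : Set P.Y := {u | u ∈ P.I ∧ ∃ p ∈ F, u = p.1 ∨ u = p.2} with hR'
  have hR'fin : R'.Finite := by
    refine ((F.image Prod.fst ∪ F.image Prod.snd).finite_toSet).subset ?_
    rintro u ⟨_, p, hp, rfl | rfl⟩
    · simp only [Finset.coe_union, Finset.coe_image, Set.mem_union, Set.mem_image, Finset.mem_coe]
      exact Or.inl ⟨p, hp, rfl⟩
    · simp only [Finset.coe_union, Finset.coe_image, Set.mem_union, Set.mem_image, Finset.mem_coe]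
      exact Or.inr ⟨p, hp, rfl⟩
  have hR'I : R' ⊆ P.I := fun u hu => hu.1
  have hG := P.comp_finite hR'fin hR'I (ε / 2) (half_pos hε)
  set G : Set P.H := {g : P.H | ∃ p ∈ R', ε / 2 ≤ dist (g • p) (P.ι g)} with hGdef
  have hE : (Set.image2 (fun (g : P.H) (u : P.Y) => g • u) G R').Finite := hG.image2 _ hR'fin
  obtain ⟨m₀, hm₀⟩ := D.deep_avoid h1 _ hE
  refine ⟨m₀, fun m hm v hv w hw hvw => ?_⟩
  obtain ⟨g, p, hp, rfl, rfl⟩ := hF v w hvw
  have hp1 : p.1 ∈ R' := ⟨(P.smul_mem_I_iff g _).1 (P.adj_mem _ _ hvw).1, p, hp, Or.inl rfl⟩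
  have hp2 : p.2 ∈ R' := ⟨(P.smul_mem_I_iff g _).1 (P.adj_mem _ _ hvw).2, p, hp, Or.inr rfl⟩
  have hgG : g ∉ G := by
    intro hg
    exact Set.disjoint_left.1 (hm₀ m hm) (Set.mem_image2_of_mem hg hp1) hv
  have h1' : dist (g • p.1) (P.ι g) < ε / 2 := by
    by_contra hcon
    exact hgG ⟨p.1, hp1, not_lt.1 hcon⟩
  have h2' : dist (g • p.2) (P.ι g) < ε / 2 := by
    by_contra hcon
    exact hgG ⟨p.2, hp2, not_lt.1 hcon⟩
  calc dist (g • p.1) (g • p.2) ≤ dist (g • p.1) (P.ι g) + dist (P.ι g) (g • p.2) := dist_triangle _ _ _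
    _ < ε / 2 + ε / 2 := by
        rw [dist_comm (P.ι g)]
        exact add_lt_add h1' h2'
    _ = ε := add_halves ε

/-- the local statement: a preconnected neighbourhood (in `L`) inside `closure O` -/
theorem Push.conn_nhd {P : PS} (D : Push P) {x : P.Y} (hx : x ∈ P.L) (O : Set P.Y) (hO : IsOpen O) (hxO : x ∈ O)
    (h1 : P.ι 1 ∉ O) :
    ∃ C : Set P.Y, IsPreconnected C ∧ C ⊆ closure O ∧ C ⊆ P.L ∧ ∃ V ∈ 𝓝 x, V ∩ P.L ⊆ C := by
  set A : Set P.Y := Oᶜ with hAdef
  have hA : IsClosed A := hO.isClosed_compl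
  have h1A : P.ι 1 ∈ A := h1
  have hxA : x ∉ A := fun h => h hxO
  obtain ⟨M, hM⟩ := D.refine hA h1A
  have hTI : ∀ m, D.deep A m ⊆ P.I := fun m => D.deep_subset_I A m
  have hOm : ∀ m, ∀ y ∈ P.L, y ∉ A → y ∈ P.Om (D.deep A m) := fun m y hy hyA => D.mem_om_deep hA m hy hyA
  set K : ℕ → Set P.Y := fun m => P.Q (D.deep A (M + m)) x with hKdef
  have hKanti : Antitone K := by
    intro m m' hmm'
    exact PS.Q_mono (hTI _) (hTI _) (D.deep_anti A (by omega)) (hOm _ x hx hxA) (hOm _ x hx hxA)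
  have hKsub : ∀ m, K m ⊆ D.deep A (M + m) := fun m => PS.Q_subset _ _
  refine ⟨⋂ m, closure (K m), ?_, ?_, ?_, ?_⟩
  · -- (e)
    refine s9c_chain_limit K hKanti fun ε hε => ?_
    obtain ⟨m₀, hm₀⟩ := D.mesh h1A ε hε
    refine ⟨m₀, fun m hm a ha b hb => ?_⟩
    have hj : P.Joined (D.deep A (M + m)) a b := PS.Q_joined (hOm _ x hx hxA) ha hb
    have key : ∀ z, P.Joined (D.deep A (M + m)) a z →
        z ∈ K m ∧ Relation.ReflTransGen (fun u v => u ∈ K m ∧ v ∈ K m ∧ dist u v < ε) a z := by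
      intro z hz
      induction hz with
      | refl => exact ⟨ha, Relation.ReflTransGen.refl⟩
      | @tail u v _ huv ih =>
        have hv : v ∈ K m := PS.Q_of_joined ih.1 (Relation.ReflTransGen.single huv)
        exact ⟨hv, ih.2.tail ⟨ih.1, hv, hm₀ (M + m) (by omega) u huv.1 v huv.2.1 huv.2.2⟩⟩
    exact (key b hj).2
  · -- (b)
    intro y hy
    refine closure_mono ?_ (Set.mem_iInter.1 hy 0)
    intro v hv
    by_contra hvO
    exact (hKsub 0 hv).2.1 hvO
  · -- (c)
    intro y hy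
    rcases P.mem_L_or y with hyL | ⟨h, rfl⟩
    · exact hyL
    · exfalso
      obtain ⟨m₀, hm₀⟩ := D.deep_avoid h1A {P.ι h} (Set.finite_singleton _)
      obtain ⟨z, hz, hzK⟩ := mem_closure_iff.1 (Set.mem_iInter.1 hy m₀) _ (P.ι_isolated h) rfl
      rw [Set.mem_singleton_iff] at hz
      subst hz
      exact Set.disjoint_left.1 (hm₀ (M + m₀) (by omega)) rfl (hKsub m₀ hzK)
  · -- (d)
    have hloc := PS.Q_locconst (hTI M) (hOm M x hx hxA)
    refine ⟨{y | (y ∈ P.L → (y ∈ P.Om (D.deep A M) ∧ P.Q (D.deep A M) y = P.Q (D.deep A M) x))} ∩ O,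
      Filter.inter_mem hloc (hO.mem_nhds hxO), ?_⟩
    rintro y ⟨⟨hy1, hyO⟩, hyL⟩
    have hyA : y ∉ A := fun h => h hyO
    have heq : ∀ m, P.Q (D.deep A (M + m)) y = P.Q (D.deep A (M + m)) x := by
      intro m
      induction m with
      | zero => exact (hy1 hyL).2
      | succ m ih => exact hM (M + m) (by omega) y hyL x hx hyA hxA ih
    refine Set.mem_iInter.2 fun m => ?_
    have hacc := PS.Q_acc (hTI (M + m)) (hOm (M + m) y hyL hyA)
    rw [heq m] at hacc
    exact closure_mono Set.sdiff_subset hacc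

/-- **Proposition 9.8** -/
theorem PS.locallyConnected (P : PS) : LocallyConnectedSpace P.L := by
  obtain ⟨D⟩ := P.exists_push
  rw [locallyConnectedSpace_iff_connected_subsets]
  intro x U hU
  obtain ⟨ε, hε, hεU⟩ := Metric.mem_nhds_iff.1 hU
  have hd : 0 < dist x.1 (P.ι 1) := by
    rw [dist_pos]
    intro h
    exact P.ι_notMem_L 1 (h ▸ x.2)
  set r : ℝ := min ε (dist x.1 (P.ι 1)) / 2 with hr
  have hr0 : 0 < r := half_pos (lt_min hε hd)
  have hrε : r < ε := lt_of_lt_of_le (half_lt_self (lt_min hε hd)) (min_le_left _ _)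
  have hrd : r < dist x.1 (P.ι 1) := lt_of_lt_of_le (half_lt_self (lt_min hε hd)) (min_le_right _ _)
  obtain ⟨C, hCpre, hCO, hCL, V', hV', hV'C⟩ := D.conn_nhd x.2 (ball x.1 r) isOpen_ball (mem_ball_self hr0)
    (by
      intro h
      rw [mem_ball, dist_comm] at h
      linarith)
  refine ⟨Subtype.val ⁻¹' C, ?_, ?_, ?_⟩
  · refine Filter.mem_of_superset (continuous_subtype_val.continuousAt.preimage_mem_nhds hV') ?_
    intro y hy
    exact hV'C ⟨hy, y.2⟩
  · rw [← Topology.IsInducing.subtypeVal.isPreconnected_image, Subtype.image_preimage_coe,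
      Set.inter_eq_right.2 hCL]
    exact hCpre
  · intro y hy
    apply hεU
    have h1 : y.1 ∈ closedBall x.1 r := closure_ball_subset_closedBall (hCO hy)
    rw [mem_closedBall] at h1
    rw [mem_ball]
    exact lt_of_le_of_lt h1 hrε

/-- **the interface `I_end`** of `Top.lean` (`s10_false`: helper29's sorry free Sec 10) -/
theorem PS.false (P : PS) : False := s10_false P P.locallyConnected

end Claimed.Agent.R309
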