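import Claimed.Agent.R309.S9.Event

/-!
# Row 309, package **S9-Refine**: Lemma 9.6 (`push:majority`) and Lemma 9.7 (`push:refinement`)

Statements: helper209.  OWNER = the seat that claims subtask `S9-Refine`.  Keep the statements verbatim (tell helper209 if one is false or
awkward); helper lemmas with prefix `s9r_`.  Black boxes: `S8/Defs`, `S8/Label`, `S8/Depth`, `S9/Deep`, `S9/Event`.  ~900 lines.
The final statement is `Push.refine`; the intermediate statements are a suggested route.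

Notation: `Q_m = P.Q (D.deep A m)`, `I_m = D.deep A m`; by `mem_om_deep` all of `S8/Label.lean` applies at the points of `L \ A`.
`Z = {z₁, z₂, z₃} ⊆ L` three distinct points (`PS.exists_three`).  `Maj A Z m g lam`: at least two points of `g Z` lie outside `A` and have `Q_{m+1}` label `lam`.
-/

set_option autoImplicit false

namespace Claimed.Agent.R309

open Filter Topology Set Metric
open scoped Pointwise

namespace Push

variable {P : PS} (D : Push P)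

/-- `lam` is a majority label of `g Z` at level `m + 1` -/
def Maj (A Z : Set P.Y) (m : ℕ) (g : P.H) (lam : Set P.Y) : Prop :=
  ∃ z ∈ Z, ∃ z' ∈ Z, z ≠ z' ∧ g • z ∉ A ∧ g • z' ∉ A ∧
    P.Q (D.deep A (m + 1)) (g • z) = lam ∧ P.Q (D.deep A (m + 1)) (g • z') = lam

/-- two pairs in a three point set meet -/
theorem maj_unique {A : Set P.Y} {z₁ z₂ z₃ : P.Y} {m : ℕ} {g : P.H} {lam lam' : Set P.Y}
    (h : D.Maj A {z₁, z₂, z₃} m g lam) (h' : D.Maj A {z₁, z₂, z₃} m g lam') : lam = lam' := by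
  obtain ⟨z, hz, z', hz', hne, -, -, e1, e2⟩ := h
  obtain ⟨w, hw, w', hw', hne', -, -, e3, e4⟩ := h'
  by_cases h1 : z = w
  · rw [← e1, ← e3, h1]
  by_cases h2 : z = w'
  · rw [← e1, ← e4, h2]
  by_cases h3 : z' = w
  · rw [← e2, ← e3, h3]
  by_cases h4 : z' = w'
  · rw [← e2, ← e4, h4]
  exfalso
  clear e1 e2 e3 e4
  simp only [mem_insert_iff, mem_singleton_iff] at hz hz' hw hw'
  rcases hz with hz | hz | hz <;> rcases hz' with hz' | hz' | hz' <;> rcases hw with hw | hw | hw <;>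
    rcases hw' with hw' | hw' | hw' <;> simp_all

/-- the finite set of moves: edge moves, and one parabolic element for every base vertex if `I ⊆ L`.
(`adj_fin`: for `(v,w) = k (u,u')` with `(u,u')` in the finite list, `u, u'` are adjacent vertices; write `u = a • p`, `u' = b • p'` by `R_cov`; `s = a⁻¹ b`, `g = k a`.) -/
theorem exists_moves :
    ∃ S : Set P.H, S.Finite ∧
      (∀ v w, P.adj v w → ∃ g : P.H, ∃ s ∈ S, ∃ p ∈ D.R, ∃ p' ∈ D.R, g • p = v ∧ (g * s) • p' = w) ∧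
      (P.I ⊆ P.L → ∀ p ∈ D.R, ∃ h ∈ S, h • p = p ∧ ∀ z ∈ P.L, Tendsto (fun j : ℕ => h ^ j • z) atTop (𝓝 p)) := by
  classical
  obtain ⟨F, hF⟩ := P.adj_fin
  -- a representation of every vertex
  have hrep : ∀ u : P.Y, ∃ a : P.H, u ∈ P.I → ∃ p ∈ D.R, a • p = u := by
    intro u
    by_cases hu : u ∈ P.I
    · obtain ⟨a, p, hp, h⟩ := D.R_cov u hu
      exact ⟨a, fun _ => ⟨p, hp, h⟩⟩
    · exact ⟨1, fun h => absurd h hu⟩
  choose rep hrep using hrep
  -- a parabolic element for every vertex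
  have hpar : ∀ p : P.Y, ∃ h : P.H, P.I ⊆ P.L → p ∈ P.I →
      h • p = p ∧ ∀ z ∈ P.L, Tendsto (fun j : ℕ => h ^ j • z) atTop (𝓝 p) := by
    intro p
    by_cases hp : P.I ⊆ P.L ∧ p ∈ P.I
    · obtain ⟨h, h1, h2⟩ := P.parab hp.1 p hp.2
      exact ⟨h, fun _ _ => ⟨h1, h2⟩⟩
    · exact ⟨1, fun h1 h2 => absurd ⟨h1, h2⟩ hp⟩
  choose par hpar using hpar
  refine ⟨((fun pr : P.Y × P.Y => (rep pr.1)⁻¹ * rep pr.2) '' (F : Set (P.Y × P.Y))) ∪ par '' D.R,
    (F.finite_toSet.image _).union (D.R_fin.image _), ?_, ?_⟩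
  · intro v w hvw
    obtain ⟨k, pr, hpr, hv, hw⟩ := hF v w hvw
    obtain ⟨hvI, hwI⟩ := P.adj_mem v w hvw
    have h1 : pr.1 ∈ P.I := by
      have := P.I_smul k⁻¹ v hvI
      rwa [hv, inv_smul_smul] at this
    have h2 : pr.2 ∈ P.I := by
      have := P.I_smul k⁻¹ w hwI
      rwa [hw, inv_smul_smul] at this
    obtain ⟨p, hp, hap⟩ := hrep pr.1 h1
    obtain ⟨p', hp', hbp⟩ := hrep pr.2 h2
    refine ⟨k * rep pr.1, (rep pr.1)⁻¹ * rep pr.2, Or.inl ⟨pr, hpr, rfl⟩, p, hp, p', hp', ?_, ?_⟩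
    · rw [mul_smul, hap, hv]
    · rw [mul_assoc, mul_inv_cancel_left, mul_smul, hbp, hw]
  · intro hIL p hp
    exact ⟨par p, Or.inr ⟨p, hp, rfl⟩, hpar p hIL (D.R_sub hp)⟩

omit D in
/-- an injective map sends at least two of three distinct points away from a given point -/
theorem s9r_two_of_three {z₁ z₂ z₃ : P.Y} (h12 : z₁ ≠ z₂) (h13 : z₁ ≠ z₃) (h23 : z₂ ≠ z₃) (f : P.Y → P.Y)
    (hf : Function.Injective f) (q : P.Y) :
    ∃ z ∈ ({z₁, z₂, z₃} : Set P.Y), ∃ z' ∈ ({z₁, z₂, z₃} : Set P.Y), z ≠ z' ∧ f z ≠ q ∧ f z' ≠ q := by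
  by_cases h1 : f z₁ = q
  · refine ⟨z₂, by simp, z₃, by simp, h23, ?_, ?_⟩
    · intro h; exact h12 (hf (h1.trans h.symm))
    · intro h; exact h13 (hf (h1.trans h.symm))
  by_cases h2 : f z₂ = q
  · refine ⟨z₁, by simp, z₃, by simp, h13, h1, ?_⟩
    intro h; exact h23 (hf (h2.trans h.symm))
  exact ⟨z₁, by simp, z₂, by simp, h12, h1, h2⟩

/-- **Lemma 9.6.**  Apply `unif_label` to the finite set `Z ∪ ⋃ s ∈ S, s • Z ⊆ L`: all its points except `q` get one label `lam` under `g`; at least two points of `Z` and, for every `s`,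
at least two points of `s • Z` are different from `q` (`g • s • z = (g * s) • z`). -/
theorem maj_exists {A : Set P.Y} (hA : IsClosed A) (h1 : P.ι 1 ∈ A) {z₁ z₂ z₃ : P.Y} (hz₁ : z₁ ∈ P.L) (hz₂ : z₂ ∈ P.L)
    (hz₃ : z₃ ∈ P.L) (h12 : z₁ ≠ z₂) (h13 : z₁ ≠ z₃) (h23 : z₂ ≠ z₃) (S : Set P.H) (hS : S.Finite) :
    ∃ M : ℕ, ∀ m, M ≤ m → ∀ g : P.H, D.𝒜.Dep A {P.ι g} m →
      ∃ lam, D.Maj A {z₁, z₂, z₃} m g lam ∧ ∀ s ∈ S, D.Maj A {z₁, z₂, z₃} m (g * s) lam := by
  have hZL : ({z₁, z₂, z₃} : Set P.Y) ⊆ P.L := by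
    intro z hz
    simp only [mem_insert_iff, mem_singleton_iff] at hz
    rcases hz with rfl | rfl | rfl <;> assumption
  have hZfin : ({z₁, z₂, z₃} : Set P.Y).Finite := by simp
  obtain ⟨M, hM⟩ := D.unif_label hA h1 (({z₁, z₂, z₃} : Set P.Y) ∪ ⋃ s ∈ S, (fun z => s • z) '' ({z₁, z₂, z₃} : Set P.Y))
    (hZfin.union (hS.biUnion fun s _ => hZfin.image _)) (by
      intro z hz
      rcases hz with hz | hz
      · exact hZL hz
      · simp only [mem_iUnion] at hz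
        obtain ⟨s, -, w, hw, rfl⟩ := hz
        exact (P.smul_mem_L_iff s w).2 (hZL hw))
  refine ⟨M, fun m hm g hg => ?_⟩
  obtain ⟨q, -, hq⟩ := hM m hm g hg
  obtain ⟨z, hz, z', hz', hne, hzq, hzq'⟩ := s9r_two_of_three h12 h13 h23 id Function.injective_id q
  simp only [id] at hzq hzq'
  refine ⟨P.Q (D.deep A (m + 1)) (g • z), ?_, ?_⟩
  · obtain ⟨a1, a2, a3⟩ := hq z (Or.inl hz) z' (Or.inl hz') hzq hzq'
    exact ⟨z, hz, z', hz', hne, a1, a2, rfl, a3.symm⟩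
  · intro s hs
    obtain ⟨w, hw, w', hw', hne', hwq, hwq'⟩ := s9r_two_of_three h12 h13 h23 (fun y => s • y)
      (MulAction.injective s) q
    have hmem : ∀ u ∈ ({z₁, z₂, z₃} : Set P.Y), s • u ∈
        (({z₁, z₂, z₃} : Set P.Y) ∪ ⋃ s ∈ S, (fun z => s • z) '' ({z₁, z₂, z₃} : Set P.Y)) := by
      intro u hu
      refine Or.inr ?_
      simp only [mem_iUnion]
      exact ⟨s, hs, u, hu, rfl⟩
    obtain ⟨b1, b2, b3⟩ := hq z (Or.inl hz) (s • w) (hmem w hw) hzq hwq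
    obtain ⟨c1, c2, c3⟩ := hq z (Or.inl hz) (s • w') (hmem w' hw') hzq hwq'
    refine ⟨w, hw, w', hw', hne', ?_, ?_, ?_, ?_⟩
    · rw [mul_smul]; exact b2
    · rw [mul_smul]; exact c2
    · rw [mul_smul]; exact b3.symm
    · rw [mul_smul]; exact c3.symm

/-- if all three points `g_j z_i` converge to `x ∈ L \ A` then eventually `Q_{m+1}(x)` is the majority label of `g_j Z` (`Q_locconst`, `A` closed) -/
theorem maj_of_tendsto {A : Set P.Y} (hA : IsClosed A) {z z' : P.Y} (hz : z ∈ P.L) (hz' : z' ∈ P.L) (hzz' : z ≠ z') {Z : Set P.Y}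
    (hzZ : z ∈ Z) (hzZ' : z' ∈ Z) (m : ℕ) {x : P.Y} (hx : x ∈ P.L) (hxA : x ∉ A) (g : ℕ → P.H)
    (hg : Tendsto (fun j => g j • z) atTop (𝓝 x)) (hg' : Tendsto (fun j => g j • z') atTop (𝓝 x)) :
    ∀ᶠ j in atTop, D.Maj A Z m (g j) (P.Q (D.deep A (m + 1)) x) := by
  have hom : x ∈ P.Om (D.deep A (m + 1)) := D.mem_om_deep hA (m + 1) hx hxA
  have hloc := PS.Q_locconst (D.deep_subset_I A (m + 1)) hom
  have hnA : ∀ᶠ y in 𝓝 x, y ∉ A := hA.isOpen_compl.mem_nhds hxA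
  filter_upwards [hg.eventually hloc, hg'.eventually hloc, hg.eventually hnA, hg'.eventually hnA] with j a1 a2 a3 a4
  exact ⟨z, hzZ, z', hzZ', hzz', a3, a4, (a1 ((P.smul_mem_L_iff _ _).2 hz)).2, (a2 ((P.smul_mem_L_iff _ _).2 hz')).2⟩

/-- **(9.4)** case `I ⊆ L`: for `v ∈ I_m`, `v = g • p`, the majority label of `g Z` is `Q_{m+1}(v)`.
Proof: `h ∈ S` parabolic at `p`; `g h^j • p = v`, so `Dep A {ι (g h^j)} m` for all `j` by definition of `I_m`; by `hM` and `maj_unique` the majority labels of `g h^j Z` do not depend on `j`;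
`g h^j z → g p = v` and `maj_of_tendsto`. -/
theorem maj_vertex {A : Set P.Y} (hA : IsClosed A) {z₁ z₂ z₃ : P.Y} (hz₁ : z₁ ∈ P.L) (hz₂ : z₂ ∈ P.L)
    (h12 : z₁ ≠ z₂) (hIL : P.I ⊆ P.L) (m : ℕ) (h : P.H)
    (hM : ∀ g : P.H, D.𝒜.Dep A {P.ι g} m →
      ∃ lam, D.Maj A {z₁, z₂, z₃} m g lam ∧ D.Maj A {z₁, z₂, z₃} m (g * h) lam)
    {p : P.Y} (hp : p ∈ D.R) (hhp : h • p = p) (hh : ∀ z ∈ P.L, Tendsto (fun j : ℕ => h ^ j • z) atTop (𝓝 p))
    {v : P.Y} (hv : v ∈ D.deep A m) (g : P.H) (hg : g • p = v) :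
    D.Maj A {z₁, z₂, z₃} m g (P.Q (D.deep A (m + 1)) v) := by
  -- all `g h^j` represent `v`
  have hfix : ∀ j : ℕ, h ^ j • p = p := by
    intro j
    induction j with
    | zero => simp
    | succ j ih => rw [pow_succ, mul_smul, hhp, ih]
  have hdep : ∀ j : ℕ, D.𝒜.Dep A {P.ι (g * h ^ j)} m := by
    intro j
    refine hv.2.2 (g * h ^ j) p hp ?_
    rw [mul_smul, hfix, hg]
  obtain ⟨lam, hlam, -⟩ := hM g (by simpa using hdep 0)
  have hall : ∀ j : ℕ, D.Maj A {z₁, z₂, z₃} m (g * h ^ j) lam := by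
    intro j
    induction j with
    | zero => simpa using hlam
    | succ j ih =>
      obtain ⟨lam', h1, h2⟩ := hM (g * h ^ j) (hdep j)
      have : lam' = lam := D.maj_unique h1 ih
      rw [this] at h2
      rwa [pow_succ, ← mul_assoc]
  have hvL : v ∈ P.L := hIL hv.1
  have hvA : v ∉ A := hv.2.1
  have hlim : ∀ z ∈ P.L, Tendsto (fun j : ℕ => (g * h ^ j) • z) atTop (𝓝 v) := by
    intro z hz
    have h1 := ((P.act_cont g).tendsto p).comp (hh z hz)
    rw [hg] at h1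
    refine h1.congr fun j => ?_
    simp [mul_smul]
  have hev := D.maj_of_tendsto hA hz₁ hz₂ h12 (Z := {z₁, z₂, z₃}) (by simp) (by simp) m hvL hvA
    (fun j => g * h ^ j) (hlim z₁ hz₁) (hlim z₂ hz₂)
  obtain ⟨j, hj⟩ := hev.exists
  have : lam = P.Q (D.deep A (m + 1)) v := D.maj_unique (hall j) hj
  rw [← this]
  exact hlam

/-- case `I = range ι`: group vertices `ι g` near `x ∈ L \ A` have majority label `Q_{m+1}(x)`.
Proof: otherwise a sequence `ι (g n) → x` of exceptions; `tendsto_cofinite_of_tendsto`, `exists_subseq`: `ι (g n)⁻¹ → b`; two of the three points are `≠ b`; `P.conv` with `K = {z, z'}`; `maj_of_tendsto`. -/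
theorem maj_near {A : Set P.Y} (hA : IsClosed A) {z₁ z₂ z₃ : P.Y} (hz₁ : z₁ ∈ P.L) (hz₂ : z₂ ∈ P.L)
    (hz₃ : z₃ ∈ P.L) (h12 : z₁ ≠ z₂) (h13 : z₁ ≠ z₃) (h23 : z₂ ≠ z₃) (m : ℕ) {x : P.Y} (hx : x ∈ P.L) (hxA : x ∉ A) :
    ∀ᶠ y in 𝓝 x, ∀ g : P.H, P.ι g = y → D.Maj A {z₁, z₂, z₃} m g (P.Q (D.deep A (m + 1)) x) := by
  by_contra hcon
  rw [Filter.not_eventually] at hcon
  obtain ⟨ys, hys, hbad⟩ := Filter.exists_seq_forall_of_frequently hcon
  simp only [not_forall] at hbad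
  choose g hg hgbad using hbad
  have hιg : Tendsto (fun n => P.ι (g n)) atTop (𝓝 x) := by
    refine hys.congr fun n => (hg n).symm
  have hcof := P.tendsto_cofinite_of_tendsto hx hιg
  obtain ⟨φ, hφ, a, ha, b, hb, h1, h2⟩ := P.exists_subseq g hcof
  have hax : a = x := tendsto_nhds_unique h1 (hιg.comp hφ.tendsto_atTop)
  subst hax
  obtain ⟨z, hz, z', hz', hne, hzb, hzb'⟩ := s9r_two_of_three h12 h13 h23 id Function.injective_id b
  simp only [id] at hzb hzb'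
  have hZL : ({z₁, z₂, z₃} : Set P.Y) ⊆ P.L := by
    intro z hz
    simp only [mem_insert_iff, mem_singleton_iff] at hz
    rcases hz with rfl | rfl | rfl <;> assumption
  have hK : IsCompact ({z, z'} : Set P.Y) := (by simp : ({z, z'} : Set P.Y).Finite).isCompact
  have hbK : b ∉ ({z, z'} : Set P.Y) := by
    simp only [mem_insert_iff, mem_singleton_iff, not_or]
    exact ⟨fun h => hzb h.symm, fun h => hzb' h.symm⟩
  have hunif := P.conv (fun n => g (φ n)) a b ha hb h1 h2 {z, z'} hK hbK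
  have t1 : Tendsto (fun n => g (φ n) • z) atTop (𝓝 a) := hunif.tendsto_at (by simp)
  have t2 : Tendsto (fun n => g (φ n) • z') atTop (𝓝 a) := hunif.tendsto_at (by simp)
  have hev := D.maj_of_tendsto hA (hZL hz) (hZL hz') hne (Z := {z₁, z₂, z₃}) hz hz' m hx hxA
    (fun n => g (φ n)) t1 t2
  obtain ⟨n, hn⟩ := hev.exists
  exact hgbad (φ n) hn

/-- **Lemma 9.7** (`push:refinement`).
Take `Z`, `S` (`exists_moves`), `M` (`maj_exists`).  Let `m ≥ M`, `Q_m(x) = Q_m(y)`.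
CASE `I ⊆ L`: for adjacent `v, w ∈ I_m` write `v = g • p`, `w = (g s) • p'`; `maj_vertex` at `(v, g)` and at `(w, g s)`, `maj_exists` and `maj_unique` give `Q_{m+1}(v) = Q_{m+1}(w)`; so `Q_{m+1}` is
 constant along paths of `K[I_m]` (`Joined.const`).  Choose `v ∈ Q_m(x)` so near `x` that `Q_{m+1}(v) = Q_{m+1}(x)` (`Q_acc` for `I_m`, `Q_locconst` for `I_{m+1}`; `v ∈ I ⊆ L`), same for `w`, `y`;
 `v, w ∈ Q_m(x) = Q_m(y)` are joined (`Q_joined`).
CASE `I = range ι`: `R = {ι 1}`, `g • ι 1 = ι g`; a vertex `ι g ∈ I_m` has `Dep A {ι g} m`; let `J(ι g)` be its unique majority label; adjacent vertices of `I_m` are `ι g`, `ι (g s)`, so `J` is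
 constant along paths of `K[I_m]`; by `maj_near` `J(v) = Q_{m+1}(x)` for `v ∈ Q_m(x)` near `x`. -/
theorem refine {A : Set P.Y} (hA : IsClosed A) (h1 : P.ι 1 ∈ A) :
    ∃ M : ℕ, ∀ m, M ≤ m → ∀ x ∈ P.L, ∀ y ∈ P.L, x ∉ A → y ∉ A →
      P.Q (D.deep A m) x = P.Q (D.deep A m) y → P.Q (D.deep A (m + 1)) x = P.Q (D.deep A (m + 1)) y := by
  obtain ⟨z₁, hz₁, z₂, hz₂, z₃, hz₃, h12, h13, h23⟩ := P.exists_three
  obtain ⟨S, hS, hedge, hpar⟩ := D.exists_moves
  obtain ⟨M, hM⟩ := D.maj_exists hA h1 hz₁ hz₂ hz₃ h12 h13 h23 S hS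
  refine ⟨M, fun m hm x hx y hy hxA hyA hQ => ?_⟩
  have hMaj := hM m hm
  have omx : x ∈ P.Om (D.deep A m) := D.mem_om_deep hA m hx hxA
  have omy : y ∈ P.Om (D.deep A m) := D.mem_om_deep hA m hy hyA
  have omx' : x ∈ P.Om (D.deep A (m + 1)) := D.mem_om_deep hA (m + 1) hx hxA
  have omy' : y ∈ P.Om (D.deep A (m + 1)) := D.mem_om_deep hA (m + 1) hy hyA
  have hTI := D.deep_subset_I A m
  have hTI' := D.deep_subset_I A (m + 1)
  -- a vertex of `Q_m(u)` with a property that holds near `u`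
  have hpick : ∀ u, u ∈ P.Om (D.deep A m) → ∀ p : P.Y → Prop, (∀ᶠ t in 𝓝 u, p t) →
      ∃ v ∈ P.Q (D.deep A m) u, p v := by
    intro u hu p hp
    have hacc := PS.Q_acc hTI hu
    rw [mem_closure_iff_frequently] at hacc
    obtain ⟨v, hv, hpv⟩ := (hacc.and_eventually hp).exists
    exact ⟨v, hv.1, hpv⟩
  rcases P.I_alt with hI | hI
  · -- `I = range ι`
    have hR : D.R = {P.ι 1} := D.R_one hI
    let f : P.Y → Set (Set P.Y) := fun u => {lam | ∃ g, P.ι g = u ∧ D.Maj A {z₁, z₂, z₃} m g lam}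
    have hconst : ∀ a ∈ D.deep A m, ∀ b ∈ D.deep A m, P.adj a b → f a = f b := by
      intro a ha b hb hab
      obtain ⟨g, s, hs, p, hp, p', hp', hga, hgb⟩ := hedge a b hab
      rw [hR, mem_singleton_iff] at hp hp'
      subst hp hp'
      rw [P.smul_ι_one] at hga hgb
      have hdep : D.𝒜.Dep A {P.ι g} m := ha.2.2 g (P.ι 1) (by rw [hR]; rfl) (by rw [P.smul_ι_one, hga])
      obtain ⟨lam, l1, l2⟩ := hMaj g hdep
      have l2 := l2 s hs
      have ea : f a = {lam} := by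
        ext lam'
        simp only [f, mem_ofPred_eq, mem_singleton_iff]
        constructor
        · rintro ⟨g', hg', hm'⟩
          have : g' = g := P.ι_inj (hg'.trans hga.symm)
          subst this
          exact D.maj_unique hm' l1
        · rintro rfl
          exact ⟨g, hga, l1⟩
      have eb : f b = {lam} := by
        ext lam'
        simp only [f, mem_ofPred_eq, mem_singleton_iff]
        constructor
        · rintro ⟨g', hg', hm'⟩
          have : g' = g * s := P.ι_inj (hg'.trans hgb.symm)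
          subst this
          exact D.maj_unique hm' l2
        · rintro rfl
          exact ⟨g * s, hgb, l2⟩
      rw [ea, eb]
    obtain ⟨v, hv, hvp⟩ := hpick x omx _ (D.maj_near hA hz₁ hz₂ hz₃ h12 h13 h23 m hx hxA)
    obtain ⟨w, hw, hwp⟩ := hpick y omy _ (D.maj_near hA hz₁ hz₂ hz₃ h12 h13 h23 m hy hyA)
    rw [← hQ] at hw
    have hjoin := PS.Q_joined omx hv hw
    have hfvw : f v = f w := hjoin.const f hconst
    have hvI : v ∈ range P.ι := hI ▸ hTI (PS.Q_subset _ _ hv)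
    have hwI : w ∈ range P.ι := hI ▸ hTI (PS.Q_subset _ _ hw)
    obtain ⟨gv, hgv⟩ := hvI
    obtain ⟨gw, hgw⟩ := hwI
    have m1 : P.Q (D.deep A (m + 1)) x ∈ f v := ⟨gv, hgv, hvp gv hgv⟩
    have m2 : P.Q (D.deep A (m + 1)) y ∈ f v := by
      rw [hfvw]; exact ⟨gw, hgw, hwp gw hgw⟩
    obtain ⟨g', hg', hm'⟩ := m2
    have : g' = gv := P.ι_inj (hg'.trans hgv.symm)
    subst this
    exact D.maj_unique (hvp g' hgv) hm'
  · -- `I ⊆ L`
    have hIL : P.I ⊆ P.L := hI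
    have hconst : ∀ a ∈ D.deep A m, ∀ b ∈ D.deep A m, P.adj a b →
        P.Q (D.deep A (m + 1)) a = P.Q (D.deep A (m + 1)) b := by
      intro a ha b hb hab
      obtain ⟨g, s, hs, p, hp, p', hp', hga, hgb⟩ := hedge a b hab
      obtain ⟨h, hhS, hhp, hh⟩ := hpar hIL p hp
      obtain ⟨h', hhS', hhp', hh'⟩ := hpar hIL p' hp'
      have ma := D.maj_vertex hA hz₁ hz₂ h12 (z₃ := z₃) hIL m h
        (fun g' hg' => by
          obtain ⟨lam, l1, l2⟩ := hMaj g' hg'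
          exact ⟨lam, l1, l2 h hhS⟩) hp hhp hh ha g hga
      have mb := D.maj_vertex hA hz₁ hz₂ h12 (z₃ := z₃) hIL m h'
        (fun g' hg' => by
          obtain ⟨lam, l1, l2⟩ := hMaj g' hg'
          exact ⟨lam, l1, l2 h' hhS'⟩) hp' hhp' hh' hb (g * s) hgb
      obtain ⟨lam, l1, l2⟩ := hMaj g (ha.2.2 g p hp hga)
      rw [D.maj_unique ma l1, D.maj_unique mb (l2 s hs)]
    obtain ⟨v, hv, hvp⟩ := hpick x omx _ (PS.Q_locconst hTI' omx')
    obtain ⟨w, hw, hwp⟩ := hpick y omy _ (PS.Q_locconst hTI' omy')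
    rw [← hQ] at hw
    have hjoin := PS.Q_joined omx hv hw
    have hvw := hjoin.const (fun u => P.Q (D.deep A (m + 1)) u) hconst
    have e1 := (hvp (hIL (hTI (PS.Q_subset _ _ hv)))).2
    have e2 := (hwp (hIL (hTI (PS.Q_subset _ _ hw)))).2
    rw [← e1, ← e2]
    exact hvw

end Push

end Claimed.Agent.R309
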